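import Vale.Agent.P224.PO.LawO
import Vale.Agent.P224.PO.LawNumO
import Vale.Agent.P224.PO.Cst

/-!
The numerical law of the certificate in dimension 11.
-/

namespace Vale.Agent.P224.PO.C11

open Vale.Agent.P224 Vale.Agent.P224.UE Vale.Agent.P224.POS Vale.Agent.P224.PO

/-- the ratio of the least Clifford volume in dimension 11 -/
lemma clifford_le : leastClifford 11 ≤ 1446769 / 1000000 * sphereVol 11 :=
  odd_le (k := 5) (by norm_num) (by norm_num) (by norm_num)

/-- The numerical law in dimension 11. -/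
theorem law_neg {Θ u r H : ℝ} (h1 : 6 / 5 ≤ Θ) (h2 : Θ ≤ 721937731 / 500000000) (hu : 0 ≤ u)
    (hT : Θ ^ 2 * u ≤ 1) (hr1 : u ^ 2 ≤ r) (hr2 : r ≤ u)
    (hH : H = -(1170715 / 2147483648) + (-(15918521 / 12884901888)) * u + (22054379 / 12884901888) * r) :
    Θ * (1 + (4701971375 / 2147483648) * u + (-(3374803575 / 1073741824)) * r + (165167875 / 1073741824) * u ^ 2) + KH 11 * H < 0 := by
  have hb := div_pi_bounds (N := 524288 / 63) (by norm_num)
  have hK : KH 11 = (524288 / 63) / Real.pi := by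
    have h0 := KHn_11
    have := Real.pi_pos
    rw [h0]
    try field_simp
  rw [← hK] at hb
  rw [hH]
  exact law_two (Tm := 721937731 / 500000000) hb.1 hb.2 (by norm_num) (by norm_num) (by norm_num) (by norm_num)
    (by norm_num) (by norm_num) (by norm_num)
    (fun T hT1 hT2 => quintic_neg (by norm_num) (by norm_num) (by norm_num) (by norm_num)
      (by norm_num) (by norm_num) (by norm_num) (le_of_eq rfl) (le_of_eq rfl) (le_of_eq rfl)
      (le_of_eq rfl) (le_of_eq rfl) (le_of_eq rfl) hT1 hT2)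
    (fun T hT1 hT2 => quintic_neg (by norm_num) (by norm_num) (by norm_num) (by norm_num)
      (by norm_num) (by norm_num) (by norm_num) (le_of_eq rfl) (le_of_eq rfl) (le_of_eq rfl)
      (le_of_eq rfl) (le_of_eq rfl) (le_of_eq rfl) hT1 hT2)
    (fun T hT1 hT2 => quintic_neg (by norm_num) (by norm_num) (by norm_num) (by norm_num)
      (by norm_num) (by norm_num) (by norm_num) (le_of_eq rfl) (le_of_eq rfl) (le_of_eq rfl)
      (le_of_eq rfl) (le_of_eq rfl) (le_of_eq rfl) hT1 hT2)
    (fun T hT1 hT2 => quintic_neg (by norm_num) (by norm_num) (by norm_num) (by norm_num)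
      (by norm_num) (by norm_num) (by norm_num) (le_of_eq rfl) (le_of_eq rfl) (le_of_eq rfl)
      (le_of_eq rfl) (le_of_eq rfl) (le_of_eq rfl) hT1 hT2)
    h1 h2 hu hT hr1 hr2

end Vale.Agent.P224.PO.C11
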